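import Mathlib

/-!
# The planar lemma for extremal chords (support for P243, general convex bodies)

Thread P243, posts 2414 and 2415 (helper15): a concave upper profile `Zp` and a convex lower
profile `Zm` on an interval `[-r', r]`, with `Zm 0 = 0`, `Zp 0 = L`, whose difference
`f = Zp - Zm` stays below the cone function `L (1 - t / r)` up to `η / 2` on `[0, r]` and below
`L + η / 2` everywhere.  Then one of the two profiles lies, up to `η`, beyond TWO lines through
its value at `0` whose slopes differ by `D = (L - η / 2) / (2 r)`: either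
`Zp t ≤ L + η + a t` and `Zp t ≤ L + η + (a + D) t` with `a = (Zp r - L) / r`, or
`Zm t ≥ -η + c t` and `Zm t ≥ -η + (c - D) t` with `c = Zm r / r`.

Proof.  Step 1: the slopes `a`, `c` are always admissible, even with `η / 2`
(`planar_chords`): on `[0, r]` the chords give `Zp t ≥ L + a t`, `Zm t ≤ c t`, and the two
nonnegative defects add up to `f t - L (1 - t / r) - t f r / r ≤ η / 2`; for `t < 0` the point
`0` lies between `t` and `r`.  Step 2: if both second inequalities fail at `t₁`, `t₂`, then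
`t₁, t₂ < 0` by step 1, and at `τ = max t₁ t₂` concavity and convexity through `0` give
`f τ > L + η`, against the global bound.
-/

namespace Vale.Agent.H23.GenK

open Set

/-- Step 1 of the planar lemma: the chord slopes are admissible up to `η / 2`. -/
theorem planar_chords (r' r L η : ℝ) (Zp Zm : ℝ → ℝ) (hr : 0 < r) (hr' : 0 ≤ r')
    (hcc : ConcaveOn ℝ (Icc (-r') r) Zp) (hcv : ConvexOn ℝ (Icc (-r') r) Zm)
    (h0m : Zm 0 = 0) (h0p : Zp 0 = L) (hfr : 0 ≤ Zp r - Zm r)
    (H1 : ∀ t ∈ Icc (0 : ℝ) r, Zp t - Zm t ≤ L * (1 - t / r) + η / 2) :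
    ∀ t ∈ Icc (-r') r, Zp t ≤ L + (Zp r - L) / r * t + η / 2 ∧
      Zm r / r * t - η / 2 ≤ Zm t := by
  obtain ⟨a, ha⟩ : ∃ a : ℝ, a = (Zp r - L) / r := ⟨_, rfl⟩
  obtain ⟨c, hc⟩ : ∃ c : ℝ, c = Zm r / r := ⟨_, rfl⟩
  rw [← ha, ← hc]
  have har : a * r = Zp r - L := by rw [ha]; exact div_mul_cancel₀ _ hr.ne'
  have hcr : c * r = Zm r := by rw [hc]; exact div_mul_cancel₀ _ hr.ne'
  have h0J : (0 : ℝ) ∈ Icc (-r') r := ⟨by linarith, hr.le⟩
  have hrJ : r ∈ Icc (-r') r := ⟨by linarith, le_rfl⟩
  have hη : 0 ≤ η := by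
    have h := H1 0 ⟨le_rfl, hr.le⟩
    rw [h0p, h0m, zero_div] at h
    linarith
  intro t ht
  rcases le_or_gt 0 t with h0t | h0t
  · have hw0 : 0 ≤ t / r := div_nonneg h0t hr.le
    have hw1 : t / r ≤ 1 := (div_le_one hr).mpr ht.2
    have harg : (1 - t / r) * 0 + t / r * r = t := by
      rw [mul_zero, zero_add]
      exact div_mul_cancel₀ _ hr.ne'
    have hp := hcc.2 h0J hrJ (by linarith : 0 ≤ 1 - t / r) hw0 (by ring)
    have hm := hcv.2 h0J hrJ (by linarith : 0 ≤ 1 - t / r) hw0 (by ring)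
    simp only [smul_eq_mul] at hp hm
    rw [harg, h0p] at hp
    rw [harg, h0m] at hm
    have h1 := H1 t ⟨h0t, ht.2⟩
    have eat : a * t = t / r * (Zp r - L) := by
      rw [← har]
      field_simp
    have ect : c * t = t / r * Zm r := by
      rw [← hcr]
      field_simp
    have hprod : 0 ≤ t / r * (Zp r - Zm r) := mul_nonneg hw0 hfr
    constructor
    · rw [eat]
      linarith
    · rw [ect]
      linarith
  · have hrt : 0 < r - t := by linarith
    have hα : 0 ≤ r / (r - t) := div_nonneg hr.le hrt.le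
    have hβ : 0 ≤ -t / (r - t) := div_nonneg (by linarith) hrt.le
    have hαβ : r / (r - t) + -t / (r - t) = 1 := by
      field_simp
      ring
    have harg : r / (r - t) * t + -t / (r - t) * r = 0 := by
      field_simp
      ring
    have hp := hcc.2 ht hrJ hα hβ hαβ
    have hm := hcv.2 ht hrJ hα hβ hαβ
    simp only [smul_eq_mul] at hp hm
    rw [harg, h0p] at hp
    rw [harg, h0m] at hm
    have hp' : r * Zp t + -t * Zp r ≤ L * (r - t) := by
      have h := mul_le_mul_of_nonneg_right hp hrt.le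
      have e : (r / (r - t) * Zp t + -t / (r - t) * Zp r) * (r - t) =
          r * Zp t + -t * Zp r := by
        field_simp
      rw [e] at h
      exact h
    have hm' : 0 ≤ r * Zm t + -t * Zm r := by
      have h := mul_le_mul_of_nonneg_right hm hrt.le
      have e : (r / (r - t) * Zm t + -t / (r - t) * Zm r) * (r - t) =
          r * Zm t + -t * Zm r := by
        field_simp
      rw [e, zero_mul] at h
      exact h
    constructor
    · have h3 : r * (Zp t - L - a * t) ≤ 0 := by
        have e : r * (Zp t - L - a * t) =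
            r * Zp t + -t * Zp r - L * (r - t) + t * (Zp r - L - a * r) := by ring
        rw [e, har]
        linarith
      have h4 : Zp t - L - a * t ≤ 0 := by
        by_contra hcon
        push Not at hcon
        have h5 := mul_pos hr hcon
        linarith
      linarith
    · have h3 : 0 ≤ r * (Zm t - c * t) := by
        have e : r * (Zm t - c * t) = r * Zm t + -t * Zm r + t * (Zm r - c * r) := by ring
        rw [e, hcr]
        linarith
      have h4 : 0 ≤ Zm t - c * t := by
        by_contra hcon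
        push Not at hcon
        have h5 := mul_neg_of_pos_of_neg hr hcon
        linarith
      linarith

/-- **The planar lemma.** -/
theorem planar_lemma (r' r L η : ℝ) (Zp Zm : ℝ → ℝ) (hr : 0 < r) (hr' : 0 ≤ r') (hL : 0 < L)
    (he0 : 0 < η) (he : η ≤ L) (hcc : ConcaveOn ℝ (Icc (-r') r) Zp)
    (hcv : ConvexOn ℝ (Icc (-r') r) Zm) (h0m : Zm 0 = 0) (h0p : Zp 0 = L)
    (hfr : 0 ≤ Zp r - Zm r)
    (H1 : ∀ t ∈ Icc (0 : ℝ) r, Zp t - Zm t ≤ L * (1 - t / r) + η / 2)
    (H2 : ∀ t ∈ Icc (-r') r, Zp t - Zm t ≤ L + η / 2) :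
    (∀ t ∈ Icc (-r') r, Zp t ≤ L + η + (Zp r - L) / r * t ∧
        Zp t ≤ L + η + ((Zp r - L) / r + (L - η / 2) / (2 * r)) * t) ∨
      (∀ t ∈ Icc (-r') r, -η + Zm r / r * t ≤ Zm t ∧
        -η + (Zm r / r - (L - η / 2) / (2 * r)) * t ≤ Zm t) := by
  have hPM := planar_chords r' r L η Zp Zm hr hr' hcc hcv h0m h0p hfr H1
  obtain ⟨a, ha⟩ : ∃ a : ℝ, a = (Zp r - L) / r := ⟨_, rfl⟩
  obtain ⟨c, hc⟩ : ∃ c : ℝ, c = Zm r / r := ⟨_, rfl⟩
  obtain ⟨D, hD⟩ : ∃ D : ℝ, D = (L - η / 2) / (2 * r) := ⟨_, rfl⟩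
  rw [← ha, ← hc] at hPM
  rw [← ha, ← hc, ← hD]
  have har : a * r = Zp r - L := by rw [ha]; exact div_mul_cancel₀ _ hr.ne'
  have hcr : c * r = Zm r := by rw [hc]; exact div_mul_cancel₀ _ hr.ne'
  have hDr : D * (2 * r) = L - η / 2 := by
    rw [hD]
    exact div_mul_cancel₀ _ (by positivity)
  have hD0 : 0 < D := by
    rw [hD]
    exact div_pos (by linarith) (by positivity)
  have h0J : (0 : ℝ) ∈ Icc (-r') r := ⟨by linarith, hr.le⟩
  have hfr2 : Zp r - Zm r ≤ η / 2 := by
    have h := H1 r ⟨hr.le, le_rfl⟩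
    rw [div_self hr.ne'] at h
    linarith
  have hca : 2 * D ≤ c - a := by
    have h1 : (c - a) * r = Zm r - Zp r + L := by
      rw [sub_mul, har, hcr]
      ring
    have h2 : (2 * D) * r = L - η / 2 := by
      rw [← hDr]
      ring
    have h3 : (2 * D) * r ≤ (c - a) * r := by
      rw [h1, h2]
      linarith
    exact le_of_mul_le_mul_right h3 hr
  by_cases hA : ∀ t ∈ Icc (-r') r, Zp t ≤ L + η + (a + D) * t
  · left
    intro t ht
    exact ⟨by linarith [(hPM t ht).1], hA t ht⟩
  · right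
    have hB : ∀ t ∈ Icc (-r') r, -η + (c - D) * t ≤ Zm t := by
      by_contra hB
      push Not at hA hB
      obtain ⟨t1, ht1, h1⟩ := hA
      obtain ⟨t2, ht2, h2⟩ := hB
      have ht1neg : t1 < 0 := by
        have h := (hPM t1 ht1).1
        have hDt : D * t1 < 0 := by linarith
        by_contra hcon
        push Not at hcon
        have h5 := mul_nonneg hD0.le hcon
        linarith
      have ht2neg : t2 < 0 := by
        have h := (hPM t2 ht2).2
        have hDt : D * t2 < 0 := by linarith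
        by_contra hcon
        push Not at hcon
        have h5 := mul_nonneg hD0.le hcon
        linarith
      obtain ⟨τ, hτ⟩ : ∃ τ : ℝ, τ = max t1 t2 := ⟨_, rfl⟩
      have hτ0 : τ < 0 := by rw [hτ]; exact max_lt ht1neg ht2neg
      have hτ1 : t1 ≤ τ := by rw [hτ]; exact le_max_left _ _
      have hτ2 : t2 ≤ τ := by rw [hτ]; exact le_max_right _ _
      have hτJ : τ ∈ Icc (-r') r := ⟨le_trans ht1.1 hτ1, by linarith⟩
      obtain ⟨w1, hw1⟩ : ∃ w1 : ℝ, w1 = τ / t1 := ⟨_, rfl⟩
      obtain ⟨w2, hw2⟩ : ∃ w2 : ℝ, w2 = τ / t2 := ⟨_, rfl⟩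
      have hw1t : w1 * t1 = τ := by rw [hw1]; exact div_mul_cancel₀ _ ht1neg.ne
      have hw2t : w2 * t2 = τ := by rw [hw2]; exact div_mul_cancel₀ _ ht2neg.ne
      have hw1pos : 0 < w1 := by rw [hw1]; exact div_pos_of_neg_of_neg hτ0 ht1neg
      have hw2pos : 0 < w2 := by rw [hw2]; exact div_pos_of_neg_of_neg hτ0 ht2neg
      have hw1le : w1 ≤ 1 := by rw [hw1, div_le_one_of_neg ht1neg]; exact hτ1
      have hw2le : w2 ≤ 1 := by rw [hw2, div_le_one_of_neg ht2neg]; exact hτ2
      have hw12 : 1 ≤ w1 + w2 := by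
        rcases le_total t1 t2 with h | h
        · have e1 : τ = t2 := by rw [hτ]; exact max_eq_right h
          have e2 : w2 = 1 := by rw [hw2, e1]; exact div_self ht2neg.ne
          linarith
        · have e1 : τ = t1 := by rw [hτ]; exact max_eq_left h
          have e2 : w1 = 1 := by rw [hw1, e1]; exact div_self ht1neg.ne
          linarith
      have hp := hcc.2 ht1 h0J hw1pos.le (by linarith : 0 ≤ 1 - w1) (by ring)
      have hm := hcv.2 ht2 h0J hw2pos.le (by linarith : 0 ≤ 1 - w2) (by ring)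
      simp only [smul_eq_mul, mul_zero, add_zero] at hp hm
      rw [hw1t, h0p] at hp
      rw [hw2t, h0m] at hm
      have h1' : w1 * (L + η + (a + D) * t1) < w1 * Zp t1 := mul_lt_mul_of_pos_left h1 hw1pos
      have h2' : w2 * Zm t2 < w2 * (-η + (c - D) * t2) := mul_lt_mul_of_pos_left h2 hw2pos
      have e1 : w1 * (L + η + (a + D) * t1) = w1 * L + w1 * η + (a + D) * τ := by
        rw [← hw1t]
        ring
      have e2 : w2 * (-η + (c - D) * t2) = -(w2 * η) + (c - D) * τ := by
        rw [← hw2t]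
        ring
      have hH2 := H2 τ hτJ
      have hprod : 0 ≤ (c - a - 2 * D) * (-τ) := mul_nonneg (by linarith) (by linarith)
      have hη12 : η ≤ (w1 + w2) * η := le_mul_of_one_le_left he0.le hw12
      simp only [mul_zero, add_zero] at hm
      nlinarith
    intro t ht
    exact ⟨by linarith [(hPM t ht).2], hB t ht⟩

end Vale.Agent.H23.GenK
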